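import Crest.Agent.R166.LS.ZC
import Crest.Agent.R166.LS.Stab
import Crest.Agent.R166.LS.GL

/-! Row 166, block LS: `stW : StW`, `stSW : StSW`, `stZC : StZC`, `stStab : StKit → StStab`,
`stGL : StKit → StGL`. -/
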